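import Vale.Agent.P260.Spec

/-!
P260: the main theorem from the blocks.
-/

namespace Vale.Agent.P260

open Vale.Agent.P239.M
open scoped commutatorElement

/-! ### Følner's condition passes to subgroups -/

theorem Folner.subgroup {G : Type*} [Group G] (h : Folner G) (H : Subgroup G) : Folner H := by
  classical
  intro E ε hε
  obtain ⟨F, hF, hE⟩ := h (E.image (fun h : H => (h : G))) (ε / (E.card + 1)) (by positivity)
  -- right cosets
  let κ : G → Quotient (QuotientGroup.rightRel H) := Quotient.mk _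
  have hκ : ∀ a b : G, κ a = κ b ↔ b * a⁻¹ ∈ H := by
    intro a b
    simp only [κ]
    rw [Quotient.eq, QuotientGroup.rightRel_apply]
  have hκe : ∀ (e : H) (g : G), κ ((e : G) * g) = κ g := by
    intro e g
    rw [hκ]
    have : g * ((e : G) * g)⁻¹ = (e : G)⁻¹ := by group
    rw [this]
    exact H.inv_mem e.2
  by_contra hcon
  push Not at hcon
  -- for every coset meeting F the boundary is large
  let Ft : Quotient (QuotientGroup.rightRel H) → Finset G := fun t => F.filter fun g => κ g = t
  have key : ∀ t ∈ F.image κ, ε * ((Ft t).card : ℝ) <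
      ∑ e ∈ E, ((((Ft t).image fun x => (e : G) * x) \ F).card : ℝ) := by
    intro t ht
    obtain ⟨x₀, hx₀, rfl⟩ := Finset.mem_image.1 ht
    have hinj : Function.Injective (fun h : H => (h : G) * x₀) := by
      intro a b hab
      exact Subtype.ext (mul_right_cancel hab)
    let F' : Finset H := (Ft (κ x₀)).preimage (fun h : H => (h : G) * x₀) hinj.injOn
    have hF'im : F'.image (fun h : H => (h : G) * x₀) = Ft (κ x₀) := by
      ext g
      simp only [F', Finset.mem_image, Finset.mem_preimage]
      constructor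
      · rintro ⟨a, ha, rfl⟩; exact ha
      · intro hg
        have hg' : κ x₀ = κ g := by
          simp only [Ft, Finset.mem_filter] at hg
          exact hg.2.symm
        rw [hκ] at hg'
        exact ⟨⟨g * x₀⁻¹, hg'⟩, by simpa using hg, by simp⟩
    have hcard : F'.card = (Ft (κ x₀)).card := by
      rw [← hF'im, Finset.card_image_of_injective _ hinj]
    have hne : F'.Nonempty := by
      rw [← Finset.card_pos, hcard, Finset.card_pos]
      exact ⟨x₀, by simp [Ft, hx₀]⟩
    obtain ⟨e, heE, he⟩ := hcon F' hne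
    rw [hcard] at he
    refine he.trans_le ?_
    refine le_trans ?_ (Finset.single_le_sum
      (f := fun e : H => ((((Ft (κ x₀)).image fun x => (e : G) * x) \ F).card : ℝ))
      (fun _ _ => Nat.cast_nonneg _) heE)
    rw [Nat.cast_le, ← Finset.card_image_of_injective _ hinj]
    refine Finset.card_le_card ?_
    intro g hg
    simp only [Finset.mem_image, Finset.mem_sdiff] at hg ⊢
    obtain ⟨a, ⟨⟨b, hb, rfl⟩, hab⟩, rfl⟩ := hg
    refine ⟨⟨(b : G) * x₀, ?_, ?_⟩, ?_⟩
    · simpa [F'] using hb
    · simp [mul_assoc]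
    · intro hF
      apply hab
      simp only [F', Finset.mem_preimage, Ft, Finset.mem_filter]
      exact ⟨hF, hκe _ _⟩
  have hsum1 : ∑ t ∈ F.image κ, ((Ft t).card : ℝ) = F.card := by
    rw [← Nat.cast_sum, ← Finset.card_eq_sum_card_image κ F]
  have hsum2 : ∀ e : H, ∑ t ∈ F.image κ, ((((Ft t).image fun x => (e : G) * x) \ F).card : ℝ) =
      (((F.image fun x => (e : G) * x) \ F).card : ℝ) := by
    intro e
    rw [← Nat.cast_sum, Nat.cast_inj, ← Finset.card_biUnion]
    · congr 1
      ext g
      simp only [Finset.mem_biUnion, Finset.mem_sdiff, Finset.mem_image]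
      constructor
      · rintro ⟨t, -, ⟨a, ha, rfl⟩, hg⟩
        simp only [Ft, Finset.mem_filter] at ha
        exact ⟨⟨a, ha.1, rfl⟩, hg⟩
      · rintro ⟨⟨a, ha, rfl⟩, hg⟩
        exact ⟨κ a, ⟨a, ha, rfl⟩, ⟨a, by simp [Ft, ha], rfl⟩, hg⟩
    · intro s _ t _ hst
      rw [Function.onFun, Finset.disjoint_left]
      intro g hg hg'
      simp only [Finset.mem_sdiff, Finset.mem_image, Ft, Finset.mem_filter] at hg hg'
      obtain ⟨⟨a, ⟨-, ha⟩, rfl⟩, -⟩ := hg
      obtain ⟨⟨b, ⟨-, hb⟩, hab⟩, -⟩ := hg'
      apply hst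
      rw [← ha, ← hb]
      exact congrArg κ (mul_left_cancel hab).symm
  have hFpos : (0 : ℝ) < F.card := by exact_mod_cast hF.card_pos
  have h1 : ε * F.card < ∑ e ∈ E, (((F.image fun x => (e : G) * x) \ F).card : ℝ) := by
    rw [← hsum1, Finset.mul_sum]
    calc ∑ t ∈ F.image κ, ε * ((Ft t).card : ℝ)
        < ∑ t ∈ F.image κ, ∑ e ∈ E, ((((Ft t).image fun x => (e : G) * x) \ F).card : ℝ) :=
          Finset.sum_lt_sum_of_nonempty (hF.image κ) key
      _ = ∑ e ∈ E, (((F.image fun x => (e : G) * x) \ F).card : ℝ) := by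
          rw [Finset.sum_comm]
          exact Finset.sum_congr rfl fun e _ => hsum2 e
  have h2 : ∑ e ∈ E, (((F.image fun x => (e : G) * x) \ F).card : ℝ) ≤
      E.card * (ε / (E.card + 1) * F.card) := by
    rw [← nsmul_eq_mul]
    refine Finset.sum_le_card_nsmul _ _ _ fun e he => ?_
    exact hE _ (Finset.mem_image_of_mem _ he)
  have h3 : (E.card : ℝ) * (ε / (E.card + 1) * F.card) ≤ ε * F.card := by
    have : (E.card : ℝ) / (E.card + 1) ≤ 1 := by
      rw [div_le_one (by positivity)]; linarith
    calc (E.card : ℝ) * (ε / (E.card + 1) * F.card)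
        = ((E.card : ℝ) / (E.card + 1)) * (ε * F.card) := by ring
      _ ≤ 1 * (ε * F.card) := by
          apply mul_le_mul_of_nonneg_right this
          positivity
      _ = ε * F.card := one_mul _
  linarith

theorem Folner.mulEquiv {G G' : Type*} [Group G] [Group G'] (e : G ≃* G') (h : Folner G) :
    Folner G' := by
  classical
  intro E ε hε
  obtain ⟨F, hF, hE⟩ := h (E.image e.symm) ε hε
  refine ⟨F.image e, hF.image _, fun g hg => ?_⟩
  rw [Finset.card_image_of_injective _ e.injective]
  refine le_trans ?_ (hE (e.symm g) (Finset.mem_image_of_mem _ hg))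
  rw [Nat.cast_le, ← Finset.card_image_of_injective _ e.injective]
  refine Finset.card_le_card ?_
  intro x hx
  simp only [Finset.mem_sdiff, Finset.mem_image] at hx ⊢
  obtain ⟨⟨_, ⟨a, ha, rfl⟩, rfl⟩, hx⟩ := hx
  refine ⟨e.symm g * a, ⟨⟨a, ha, rfl⟩, ?_⟩, by simp⟩
  intro h
  exact hx ⟨_, h, by simp⟩

/-! ### Residual properties -/

theorem ResQ.subgroup {q : ℕ} (hq : q.Prime) {G : Type*} [Group G] (h : ResQ q G)
    (H : Subgroup G) : ResQ q H := by
  intro g hg
  obtain ⟨N, hN, hgN, n, hn⟩ := h (g : G) (fun h => hg (Subtype.ext h))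
  refine ⟨N.subgroupOf H, inferInstance, fun h => hgN (Subgroup.mem_subgroupOf.1 h), ?_⟩
  have h1 : (N.subgroupOf H).index ∣ q ^ n := by
    rw [← hn]
    exact Subgroup.relIndex_dvd_index_of_normal N H
  obtain ⟨m, -, hm⟩ := (Nat.dvd_prime_pow hq).1 h1
  exact ⟨m, hm⟩

theorem ResQ.mulEquiv {q : ℕ} {G G' : Type*} [Group G] [Group G'] (e : G ≃* G') (h : ResQ q G) :
    ResQ q G' := by
  intro g hg
  obtain ⟨N, hN, hgN, n, hn⟩ := h (e.symm g) (fun h => hg (by simpa using h))
  refine ⟨N.map e.toMonoidHom, hN.map _ e.surjective, ?_, n, ?_⟩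
  · rintro ⟨x, hx, hxg⟩
    apply hgN
    rw [← hxg]
    simpa using hx
  · rw [← hn]
    exact Subgroup.index_map_equiv N e

/-! ### Transport along isomorphisms -/

open CategoryTheory in
/-- cohomology along an isomorphism of groups -/
noncomputable def HH.iso (q : ℕ) {G G' : Type} [Group G] [Group G'] (e : G ≃* G') (n : ℕ) :
    HH q G n ≅ HH q G' n :=
  groupCohomology.mapIso (k := ZMod q) (A := Rep.trivial (ZMod q) G' (ZMod q))
    (B := Rep.trivial (ZMod q) G (ZMod q)) e (LinearEquiv.refl _ _) (fun _ => rfl) n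

theorem hd_congr (q : ℕ) {G G' : Type} [Group G] [Group G'] (e : G ≃* G') (n : ℕ) :
    hd q G n = hd q G' n :=
  (HH.iso q e n).toLinearEquiv.finrank_eq

theorem fin_congr {q : ℕ} {G G' : Type} [Group G] [Group G'] (e : G ≃* G') {n : ℕ}
    (h : Module.Finite (ZMod q) (HH q G n)) : Module.Finite (ZMod q) (HH q G' n) :=
  Module.Finite.equiv (HH.iso q e n).toLinearEquiv

theorem CFillS.congr {k : Type*} [CommRing k] {G G' : Type*} [Group G] [Group G'] (e : G ≃* G')
    {i : ℕ} (h : CFillS k G i) : CFillS k G' i := by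
  classical
  intro S
  obtain ⟨R, hSR, hR⟩ := h (S.image e.symm)
  have hsm : ∀ (T : Finset G) (l : List G), SmG T l → SmG (T.image e) (l.map e) := by
    intro T l hl x hx y hy
    obtain ⟨a, ha, rfl⟩ := List.mem_map.1 hx
    obtain ⟨b, hb, rfl⟩ := List.mem_map.1 hy
    rw [← map_inv, ← map_mul]
    exact Finset.mem_image_of_mem _ (hl a ha b hb)
  have hsm' : ∀ (T : Finset G') (l : List G'), SmG T l → SmG (T.image e.symm) (l.map e.symm) := by
    intro T l hl x hx y hy
    obtain ⟨a, ha, rfl⟩ := List.mem_map.1 hx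
    obtain ⟨b, hb, rfl⟩ := List.mem_map.1 hy
    rw [← map_inv, ← map_mul]
    exact Finset.mem_image_of_mem _ (hl a ha b hb)
  have hpp : ∀ z : Ch k G', pf e (pf e.symm z) = z := by
    intro z
    induction z using Finsupp.induction_linear with
    | zero => simp only [map_zero]
    | add a b ha hb => simp only [map_add, ha, hb]
    | single l r => rw [pf_single, pf_single, List.map_map]; simp
  refine ⟨R.image e, ?_, fun z hz hzs => ?_⟩
  · intro s hs
    exact Finset.mem_image.2 ⟨e.symm s, hSR (Finset.mem_image_of_mem _ hs), by simp⟩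
  · obtain ⟨c, hc, hcs⟩ := hR (pf e.symm z) (by rw [bd_pf, hz, map_zero]) (by
      refine Sup.pf _ ?_
      intro l hl
      exact ⟨by rw [List.length_map]; exact (hzs l hl).1, hsm' _ _ (hzs l hl).2⟩)
    refine ⟨pf e c, by rw [bd_pf, hc, hpp], ?_⟩
    refine Sup.pf _ ?_
    intro l hl
    exact ⟨by rw [List.length_map]; exact (hcs l hl).1, hsm _ _ (hcs l hl).2⟩

theorem Dual4.congr {q : ℕ} [Fact q.Prime] {G G' : Type} [Group G] [Group G'] (e : G ≃* G')
    (h : Dual4 q G) : Dual4 q G' where
  fg := by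
    have := h.fg
    exact Group.fg_of_surjective (f := e.toMonoidHom) e.surjective
  fp1 := CFillS.congr e h.fp1
  fp2 := CFillS.congr e h.fp2
  fin n hn := fin_congr e (h.fin n hn)
  five := by
    have := h.five
    exact (HH.iso q e 5).toLinearEquiv.symm.toEquiv.subsingleton
  four := by rw [← hd_congr q e]; exact h.four
  three := by rw [← hd_congr q e, ← hd_congr q e]; exact h.three

/-- `|Hom(G, 𝔽_q)| = q ^ dim H¹(G; 𝔽_q)` -/
theorem card_hom (q : ℕ) [Fact q.Prime] (G : Type) [Group G]
    (h : Module.Finite (ZMod q) (HH q G 1)) :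
    Nat.card (G →* Multiplicative (ZMod q)) = q ^ hd q G 1 := by
  have e1 : HH q G 1 ≃ₗ[ZMod q] (Additive G →+ ZMod q) :=
    (groupCohomology.H1IsoOfIsTrivial (Rep.trivial (ZMod q) G (ZMod q))).toLinearEquiv
  have e2 : (G →* Multiplicative (ZMod q)) ≃ (Additive G →+ ZMod q) :=
    MonoidHom.toAdditiveLeft
  rw [Nat.card_congr e2, ← Nat.card_congr e1.toEquiv]
  have := Module.natCard_eq_pow_finrank (K := ZMod q) (V := HH q G 1)
  rw [this, Nat.card_zmod]
  rfl


/-! ### Final assembly -/

theorem finiteIndex_map_subtype {G : Type*} [Group G] {H : Subgroup G} (hH : H.FiniteIndex)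
    {K : Subgroup H} (hK : K.FiniteIndex) : (K.map H.subtype).FiniteIndex := by
  refine ⟨?_⟩
  rw [Subgroup.index_map_of_injective K H.subtype_injective, Subgroup.range_subtype]
  exact mul_ne_zero hK.index_ne_zero hH.index_ne_zero

/-- A group with a central-by-solvable homomorphism is solvable. -/
theorem solvable_of_central {N A : Type*} [Group N] [Group A] (ρ : N →* A)
    (hker : ρ.ker ≤ Subgroup.center N) (H : Subgroup N) (hH : Group.IsSolvable (H.map ρ)) :
    Group.IsSolvable H := by
  let g : H →* H.map ρ := ρ.subgroupMap H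
  have hcomm : Group.IsSolvable g.ker := by
    refine Group.isSolvable_of_comm ?_
    intro a b
    apply Subtype.ext
    apply Subtype.ext
    have ha : ρ (a : H) = 1 := congrArg Subtype.val (MonoidHom.mem_ker.1 a.2)
    have h1 := Subgroup.mem_center_iff.1 (hker (MonoidHom.mem_ker.2 ha)) (b : H)
    exact h1.symm
  exact Group.isSolvable_of_ker_le_range (g.ker.subtype) g (by rw [Subgroup.range_subtype])

theorem VSolv.map {G : Type*} [Group G] {H : Subgroup G} (hH : H.FiniteIndex) (h : VSolv H) :
    VSolv G := by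
  obtain ⟨K, hK, hs⟩ := h
  refine ⟨K.map H.subtype, finiteIndex_map_subtype hH hK, ?_⟩
  have e : K ≃* K.map H.subtype := K.equivMapOfInjective H.subtype H.subtype_injective
  exact Group.isSolvable_of_surjective (f := e.toMonoidHom) e.surjective

theorem main_of_blocks (hA : BlockA) (hB : BlockB) (hC : BlockC) (hD : BlockD) (hE : BlockE)
    (hF : BlockF) : Main := by
  intro M X Γ _ _ _ _ _ _ _ _ _ p hp q hq hFol hres
  obtain ⟨Γ', hΓ', hdual⟩ := hA p hp q
  obtain ⟨H₀, hH₀, hres⟩ := hres
  let G : Subgroup Γ := Γ' ⊓ H₀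
  have hGf : G.FiniteIndex := inferInstance
  have hGF : Folner G := hFol.subgroup G
  have hGr : ResQ q G := by
    have h1 : ResQ q (G.subgroupOf H₀) := hres.subgroup hq.out _
    exact h1.mulEquiv (Subgroup.subgroupOfEquivOfLe inf_le_right)
  -- duality for all finite index subgroups
  have hdual' : ∀ {K : Type} [Group K] (f : K →* Γ), Function.Injective f →
      f.range.FiniteIndex → f.range ≤ G → Dual4 q K := by
    intro K _ f hf hfi hle
    exact (hdual f.range hfi (hle.trans inf_le_left)).congr (f.ofInjective hf).symm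
  have hG4 : Dual4 q G := hdual' G.subtype G.subtype_injective (by rwa [Subgroup.range_subtype])
    (by rw [Subgroup.range_subtype])
  have hsub : ∀ H : Subgroup G, H.FiniteIndex → Dual4 q H := by
    intro H hH
    refine hdual' (G.subtype.comp H.subtype) (G.subtype_injective.comp H.subtype_injective) ?_ ?_
    · rw [MonoidHom.range_comp, Subgroup.range_subtype]
      exact finiteIndex_map_subtype hGf hH
    · rw [MonoidHom.range_comp, Subgroup.range_subtype]
      exact Subgroup.map_subtype_le H
  have hbd : ∀ H : Subgroup G, H.FiniteIndex → hd q H 1 ≤ 1551 := by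
    intro H hH
    have hHF : Folner H := hGF.subgroup H
    have h2 := hB q H hHF (hGr.subgroup hq.out H) (by
      intro K hK
      refine hdual' (G.subtype.comp (H.subtype.comp K.subtype))
        (G.subtype_injective.comp (H.subtype_injective.comp K.subtype_injective)) ?_ ?_
      · rw [MonoidHom.range_comp, MonoidHom.range_comp, Subgroup.range_subtype]
        exact finiteIndex_map_subtype hGf (finiteIndex_map_subtype hH hK)
      · rw [MonoidHom.range_comp]
        exact Subgroup.map_subtype_le _)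
    by_contra hcon
    obtain ⟨S, Q, _, f, l, hf, hinf, ⟨hang⟩⟩ := hC q H ((hsub H hH).fin 2 (by norm_num))
      (by omega) h2
    have := hD q l H S Q f hf hHF hang
    exact not_finite Q
  -- a linear representation
  obtain ⟨r, hr⟩ : ∃ r : ℕ, r = 1551 := ⟨_, rfl⟩
  obtain ⟨N, hN, m, ρ, hρ⟩ := hE q G hG4.fg hGr r (by
    intro H hH
    rw [card_hom q H ((hsub H hH).fin 1 (by norm_num))]
    exact Nat.pow_le_pow_right hq.out.pos (hr ▸ hbd H hH))
  obtain ⟨H, hH, hs⟩ := hF ℚ_[q] m N (hsub N hN).fg (hGF.subgroup N) ρ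
  have h1 : VSolv N := ⟨H, hH, solvable_of_central ρ hρ H hs⟩
  exact (h1.map hN).map hGf

end Vale.Agent.P260
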