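import Vale.Agent.P260.Spec4
import Vale.Agent.P260.Assembly

/-!
P260: the theorem on amenable residually finite groups from its blocks.
-/

namespace Vale.Agent.P260

theorem isCyclic_of_surj {P S : Type*} [Group P] [Group S] (f : P →* S)
    (hf : Function.Surjective f) (h : IsCyclic P) : IsCyclic S :=
  isCyclic_of_surjective f hf

/-- cyclicity of large index normal subgroups passes to quotients -/
theorem cyclic_normal_of_surj {P S : Type*} [Group P] [Group S] (f : P →* S)
    (hf : Function.Surjective f)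
    (h : ∀ Q : Subgroup P, Q.Normal → 4 ≤ Q.index → IsCyclic Q) (Q : Subgroup S)
    (hQ : Q.Normal) (hi : 4 ≤ Q.index) : IsCyclic Q := by
  have h1 : IsCyclic (Q.comap f) := h _ (hQ.comap f) (by
    rw [Subgroup.index_comap_of_surjective Q hf]; exact hi)
  have h2 : Function.Surjective (f.subgroupComap Q) := by
    intro y
    obtain ⟨x, hx⟩ := hf y
    exact ⟨⟨x, by rw [Subgroup.mem_comap, hx]; exact y.2⟩, Subtype.ext hx⟩
  exact isCyclic_of_surjective (f.subgroupComap Q) h2

/-- solvability from a term of the derived series -/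
theorem solvable_of_derived {G : Type*} [Group G] (H₀ : Subgroup G) (d : ℕ) (M₁ : Subgroup G)
    (hs : Group.IsSolvable ((derivedSeries H₀ d).map H₀.subtype ⊓ M₁ : Subgroup G)) :
    Group.IsSolvable (H₀ ⊓ M₁ : Subgroup G) := by
  -- the derived series of `H₀ ⊓ M₁` lies in that of `H₀`
  have key : ∀ n : ℕ, (derivedSeries (H₀ ⊓ M₁ : Subgroup G) n).map (H₀ ⊓ M₁ : Subgroup G).subtype ≤
      (derivedSeries H₀ n).map H₀.subtype := by
    intro n
    have h1 : (derivedSeries (H₀ ⊓ M₁ : Subgroup G) n).map (Subgroup.inclusion inf_le_left) ≤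
        derivedSeries H₀ n := map_derivedSeries_le_derivedSeries _ n
    have h2 : (H₀ ⊓ M₁ : Subgroup G).subtype = H₀.subtype.comp (Subgroup.inclusion inf_le_left) :=
      rfl
    rw [h2, ← Subgroup.map_map]
    exact Subgroup.map_mono h1
  set D := derivedSeries (H₀ ⊓ M₁ : Subgroup G) d with hD
  -- `D` embeds into the solvable group
  have hDs : Group.IsSolvable D := by
    let f : D →* ((derivedSeries H₀ d).map H₀.subtype ⊓ M₁ : Subgroup G) :=
      { toFun := fun x => ⟨((x : (H₀ ⊓ M₁ : Subgroup G)) : G),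
          ⟨key d ⟨x.1, x.2, rfl⟩, x.1.2.2⟩⟩
        map_one' := rfl
        map_mul' := fun _ _ => rfl }
    have hf : Function.Injective f := by
      intro a b hab
      have := congrArg Subtype.val hab
      exact Subtype.ext (Subtype.ext this)
    exact Group.isSolvable_of_isSolvable_injective hf
  have hQ : Group.IsSolvable ((H₀ ⊓ M₁ : Subgroup G) ⧸ D) := by
    refine ⟨⟨d, ?_⟩⟩
    rw [eq_bot_iff]
    refine (derivedSeries_le_map_derivedSeries (QuotientGroup.mk'_surjective D) d).trans ?_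
    rw [← hD, QuotientGroup.map_mk'_self]
  exact (Group.isSolvable_iff_subgroup_quotient D).2 ⟨hDs, hQ⟩

theorem main4_of_blocks (hPD : BlockPD) (hG2 : BlockG2) (hG3 : BlockG3) (hG4 : BlockG4)
    (hG5 : BlockG5) (hG6 : BlockG6) (hG7 : BlockG7) : Main4 := by
  intro M X Γ _ _ _ _ _ _ _ _ _ p hp hF hres
  by_cases hfin : Finite Γ
  · refine ⟨⊥, ⟨?_⟩, inferInstance⟩
    rw [Subgroup.index_bot]
    exact Nat.card_ne_zero.2 ⟨inferInstance, hfin⟩
  have hinf : Infinite Γ := not_finite_iff_infinite.1 hfin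
  have hpd : PD4 Γ := hPD p hp
  have hdeep : ∀ (q : ℕ) [Fact q.Prime], Deep q Γ := fun q _ => hG2 Γ hpd hF hres hinf q
  have hrk : RankBound 1551 Γ := hG3 Γ hpd hF hdeep
  obtain ⟨r, hr⟩ : ∃ r : ℕ, r = 1551 := ⟨_, rfl⟩
  rw [← hr] at hrk
  obtain ⟨H₀, hn, hf, d, hP1⟩ := hG4 Γ hpd.fg hF r hrk
  have hN : ((derivedSeries H₀ d).map H₀.subtype).Normal := by
    have := hn
    exact ConjAct.normal_of_characteristic_of_normal
  obtain ⟨M₁, hM₁, hs⟩ := hG7 Γ hres _ hN (by
    intro q _ M _ hMf S hS hSq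
    obtain ⟨P, _, _, f, hPq, hP, hsurj⟩ := hG5 Γ hpd hdeep _ hN hP1 q M hMf S hS hSq
    obtain ⟨h1, h2⟩ := hG6 q P hPq hP
    exact ⟨fun hq => isCyclic_of_surj f hsurj (h1 hq),
      fun hq Q hQ hi => cyclic_normal_of_surj f hsurj (h2 hq) Q hQ hi⟩)
  exact ⟨H₀ ⊓ M₁, inferInstance, solvable_of_derived H₀ d M₁ hs⟩

end Vale.Agent.P260
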