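import Mathlib

/-!
P260: definitions for the theorem on closed aspherical 4-manifolds with amenable, virtually
residually-`q` fundamental group.
-/

namespace Vale.Agent.P260

open scoped commutatorElement

open Classical in
/-- Følner's condition, i.e. amenability of the discrete group `G`. -/
def Folner (G : Type*) [Group G] : Prop :=
  ∀ (E : Finset G) (ε : ℝ), 0 < ε → ∃ F : Finset G, F.Nonempty ∧
    ∀ g ∈ E, (((F.image fun x => g * x) \ F).card : ℝ) ≤ ε * F.card

/-- `G` is residually a finite `q`-group. -/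
def ResQ (q : ℕ) (G : Type*) [Group G] : Prop :=
  ∀ g : G, g ≠ 1 → ∃ N : Subgroup G, N.Normal ∧ g ∉ N ∧ ∃ n : ℕ, N.index = q ^ n

/-- `G` is virtually residually a finite `q`-group. -/
def VResQ (q : ℕ) (G : Type*) [Group G] : Prop :=
  ∃ H : Subgroup G, H.FiniteIndex ∧ ResQ q H

/-- `G` is virtually solvable. -/
def VSolv (G : Type*) [Group G] : Prop := ∃ H : Subgroup G, H.FiniteIndex ∧ Group.IsSolvable H

/-- `H^n(G; 𝔽_q)` -/
noncomputable abbrev HH (q : ℕ) (G : Type) [Group G] (n : ℕ) : ModuleCat (ZMod q) :=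
  groupCohomology (Rep.trivial (ZMod q) G (ZMod q)) n

/-- `dim H^n(G; 𝔽_q)` -/
noncomputable def hd (q : ℕ) (G : Type) [Group G] (n : ℕ) : ℕ :=
  Module.finrank (ZMod q) (HH q G n)

/-- The presentation data of the infinite quotient used in the Golod–Shafarevich step: 16 blocks
of commuting elements of order `q`, any two blocks generate a group of class 2, and the commutator
form composed with any nonzero functional has rank at least 8. -/
structure AngleData (q l : ℕ) (Q : Type*) [Group Q] where
  /-- generators -/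
  x : Fin 16 → Fin l → Q
  gen : Subgroup.closure (Set.range fun p : Fin 16 × Fin l => x p.1 p.2) = ⊤
  pow : ∀ a i, x a i ^ q = 1
  comm : ∀ a i j, Commute (x a i) (x a j)
  triple : ∀ a b i j k, a ≠ b → Commute ⁅x a i, x b j⁆ (x a k)
  code : ∀ a b, a ≠ b →
    ∀ ψ : Subgroup.closure (Set.range fun p : Fin l × Fin l => ⁅x a p.1, x b p.2⁆) →*
      Multiplicative (ZMod q), ψ ≠ 1 →
      8 ≤ (Matrix.of fun i j => Multiplicative.toAdd
        (ψ ⟨⁅x a i, x b j⁆, Subgroup.subset_closure ⟨(i, j), rfl⟩⟩)).rank

end Vale.Agent.P260
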