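import Vale.Agent.P260.Defs
import Vale.Agent.P239.Bdl.B11

/-!
P260: statements of the blocks.
-/

namespace Vale.Agent.P260

open Vale.Agent.P239.M (CFillS)

/-- What is used of Poincaré duality in dimension four. -/
structure Dual4 (q : ℕ) [Fact q.Prime] (G : Type) [Group G] : Prop where
  fg : Group.FG G
  fp1 : CFillS (ZMod q) G 1
  fp2 : CFillS (ZMod q) G 2
  fin : ∀ n ≤ 4, Module.Finite (ZMod q) (HH q G n)
  five : Subsingleton (HH q G 5)
  four : hd q G 4 ≤ 1
  three : hd q G 3 ≤ hd q G 1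

/-- Block A, the manifold side. -/
def BlockA : Prop :=
  ∀ {M : Type} {X : Type} {Γ : Type}
    [TopologicalSpace M] [T2Space M] [CompactSpace M] [ChartedSpace (EuclideanSpace ℝ (Fin 4)) M]
    [TopologicalSpace X] [ContractibleSpace X] [Group Γ] [MulAction Γ X]
    [ContinuousConstSMul Γ X] (p : X → M), IsQuotientCoveringMap p Γ →
    ∀ (q : ℕ) [Fact q.Prime], ∃ Γ' : Subgroup Γ, Γ'.FiniteIndex ∧
      ∀ H : Subgroup Γ, H.FiniteIndex → H ≤ Γ' → Dual4 q H

/-- Block B, amenable `q`-towers. -/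
def BlockB : Prop :=
  ∀ (q : ℕ) [Fact q.Prime] (G : Type) [Group G], Folner G → ResQ q G →
    (∀ H : Subgroup G, H.FiniteIndex → Dual4 q H) → hd q G 2 ≤ 2 * hd q G 1

/-- Block C, Golod–Shafarevich. -/
def BlockC : Prop :=
  ∀ (q : ℕ) [Fact q.Prime] (G : Type) [Group G], Module.Finite (ZMod q) (HH q G 2) →
    1552 ≤ hd q G 1 → hd q G 2 ≤ 2 * hd q G 1 →
    ∃ (S : Subgroup G) (Q : Type) (_ : Group Q) (f : S →* Q) (l : ℕ),
      Function.Surjective f ∧ Infinite Q ∧ Nonempty (AngleData q l Q)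

/-- Block D, angles. -/
def BlockD : Prop :=
  ∀ (q : ℕ) [Fact q.Prime] (l : ℕ) (G : Type) [Group G] (S : Subgroup G) (Q : Type) [Group Q]
    (f : S →* Q), Function.Surjective f → Folner G → AngleData q l Q → Finite Q

/-- Block E, groups whose finite index subgroups have bounded `𝔽_q`-rank. -/
def BlockE : Prop :=
  ∀ (q : ℕ) [Fact q.Prime] (G : Type) [Group G], Group.FG G → ResQ q G → ∀ r : ℕ,
    (∀ H : Subgroup G, H.FiniteIndex → Nat.card (H →* Multiplicative (ZMod q)) ≤ q ^ r) →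
    ∃ N : Subgroup G, N.FiniteIndex ∧ ∃ (m : ℕ) (ρ : N →* GL (Fin m) ℚ_[q]),
      ρ.ker ≤ Subgroup.center N

/-- Block F, amenable linear groups of characteristic zero. -/
def BlockF : Prop :=
  ∀ (K : Type) [Field K] [CharZero K] (m : ℕ) (G : Type) [Group G], Group.FG G → Folner G →
    ∀ ρ : G →* GL (Fin m) K, ∃ H : Subgroup G, H.FiniteIndex ∧ Group.IsSolvable (H.map ρ)

/-- The main theorem. -/
def Main : Prop :=
  ∀ {M : Type} {X : Type} {Γ : Type}
    [TopologicalSpace M] [T2Space M] [CompactSpace M] [ChartedSpace (EuclideanSpace ℝ (Fin 4)) M]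
    [TopologicalSpace X] [ContractibleSpace X] [Group Γ] [MulAction Γ X]
    [ContinuousConstSMul Γ X] (p : X → M), IsQuotientCoveringMap p Γ →
    ∀ (q : ℕ) [Fact q.Prime], Folner Γ → VResQ q Γ → VSolv Γ

end Vale.Agent.P260
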