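import Vale.Agent.P260.Spec

/-!
P260: statements of the blocks of the theorem on closed aspherical 4-manifolds with amenable,
residually finite fundamental group.
-/

namespace Vale.Agent.P260

open scoped commutatorElement
open Vale.Agent.P239.M (CFillS)

/-- residually finite -/
def ResFin (G : Type*) [Group G] : Prop :=
  ∀ g : G, g ≠ 1 → ∃ N : Subgroup G, N.Normal ∧ N.FiniteIndex ∧ g ∉ N

/-- `n` is a power of `q` -/
def QPow (q n : ℕ) : Prop := ∃ k : ℕ, n = q ^ k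

/-- the `q`-residual of `H`, as a subgroup of the ambient group -/
def RQ (q : ℕ) {G : Type*} [Group G] (H : Subgroup G) : Subgroup G :=
  sInf {W : Subgroup G | W ≤ H ∧ (W.subgroupOf H).Normal ∧ QPow q (W.relIndex H)}

/-- Euler characteristic over `𝔽_q` in degrees at most four -/
noncomputable def chi (q : ℕ) (G : Type) [Group G] : ℤ :=
  hd q G 0 - hd q G 1 + hd q G 2 - hd q G 3 + hd q G 4

/-- finite cohomology, vanishing in degree five -/
structure Fin4 (q : ℕ) (G : Type) [Group G] : Prop where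
  fin : ∀ n ≤ 4, Module.Finite (ZMod q) (HH q G n)
  five : Subsingleton (HH q G 5)

/-- What is used of Poincaré duality in dimension four, for all primes at the same time. -/
structure PD4 (G : Type) [Group G] : Prop where
  fg : Group.FG G
  fp1 : CFillS (ZMod 2) G 1
  fp2 : CFillS (ZMod 2) G 2
  cfz : ∀ H : Subgroup G, H.FiniteIndex → ∀ i : ℕ, CFillS ℤ H i
  fin4 : ∀ (q : ℕ) [Fact q.Prime] (H : Subgroup G), H.FiniteIndex → Fin4 q H
  two : ∀ H : Subgroup G, H.FiniteIndex → hd 2 H 4 ≤ 1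
  ori : ∀ (q : ℕ) [Fact q.Prime], ∃ G' : Subgroup G, G'.Normal ∧ G'.FiniteIndex ∧
    G'.index.Coprime q ∧ ∀ H : Subgroup G, H.FiniteIndex → H ≤ G' →
      hd q H 4 = 1 ∧ hd q H 3 ≤ hd q H 1

/-- Block A4, the manifold side. -/
def BlockPD : Prop :=
  ∀ {M : Type} {X : Type} {Γ : Type}
    [TopologicalSpace M] [T2Space M] [CompactSpace M] [ChartedSpace (EuclideanSpace ℝ (Fin 4)) M]
    [TopologicalSpace X] [ContractibleSpace X] [Group Γ] [MulAction Γ X]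
    [ContinuousConstSMul Γ X] (p : X → M), IsQuotientCoveringMap p Γ → PD4 Γ

/-- Block G1, independence of the field. -/
def BlockG1 : Prop :=
  ∀ (G : Type) [Group G], (∀ i : ℕ, CFillS ℤ G i) → (∀ (q : ℕ) [Fact q.Prime], Fin4 q G) →
    ∀ (q l : ℕ) [Fact q.Prime] [Fact l.Prime], chi q G = chi l G

/-- The numerical inequality for deep subgroups. -/
def Deep (q : ℕ) (G : Type) [Group G] : Prop :=
  ∀ L : Subgroup G, L.FiniteIndex → ∃ N : Subgroup G, N.Normal ∧ N.FiniteIndex ∧ N ≤ L ∧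
    ∀ K : Subgroup G, N ≤ K → QPow q (N.relIndex K) →
      ∀ K₁ W : Subgroup G, W ≤ K₁ → K₁ ≤ K → (W.subgroupOf K).Normal → QPow q (W.relIndex K) →
        hd q K₁ 2 + 2 ≤ 2 * hd q K₁ 1

/-- Block G2. -/
def BlockG2 : Prop :=
  ∀ (G : Type) [Group G], PD4 G → Folner G → ResFin G → Infinite G →
    ∀ (q : ℕ) [Fact q.Prime], Deep q G

/-- All finite index subgroups have at most `q ^ r` homomorphisms to `ℤ/q`, for all primes `q`. -/
def RankBound (r : ℕ) (G : Type) [Group G] : Prop :=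
  ∀ (q : ℕ) [Fact q.Prime] (L : Subgroup G), L.FiniteIndex →
    Nat.card (L →* Multiplicative (ZMod q)) ≤ q ^ r

/-- Block G3 (uses blocks C and D). -/
def BlockG3 : Prop :=
  ∀ (G : Type) [Group G], PD4 G → Folner G → (∀ (q : ℕ) [Fact q.Prime], Deep q G) →
    RankBound 1551 G

/-- Block E2, generalises block E. -/
def BlockE2 : Prop :=
  ∀ (q : ℕ) [Fact q.Prime] (G : Type) [Group G], Group.FG G → ∀ H : Subgroup G, H.Normal →
    H.FiniteIndex → ResQ q H → ∀ r : ℕ,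
    (∀ L : Subgroup G, L.FiniteIndex → Nat.card (L →* Multiplicative (ZMod q)) ≤ q ^ r) →
    ∃ m ≤ r, ∃ (ρ : G →* GL (Fin m) ℚ_[q]) (N : Subgroup G), N.Normal ∧ N.FiniteIndex ∧
      ∀ g, ρ g = 1 → ∀ x ∈ N, g * x = x * g

/-- Block F2, generalises block F to families of representations. -/
def BlockF2 : Prop :=
  ∀ (G : Type) [Group G], Group.FG G → Folner G → ∀ (I : Type) (K : I → Type)
    [∀ i, Field (K i)] [∀ i, CharZero (K i)] (r : ℕ) (m : I → ℕ), (∀ i, m i ≤ r) →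
    ∀ ρ : ∀ i, G →* GL (Fin (m i)) (K i), ∃ H : Subgroup G, H.Normal ∧ H.FiniteIndex ∧ ∃ d : ℕ,
      ∀ i, ∀ x ∈ derivedSeries H d, ρ i (x : G) = 1

/-- `N₀` has finite image modulo all `q`-residuals. -/
def P1 {G : Type} [Group G] (N₀ : Subgroup G) : Prop :=
  ∀ (q : ℕ) [Fact q.Prime] (H : Subgroup G), H.Normal → H.FiniteIndex →
    ∃ W : Subgroup G, W.Normal ∧ W ≤ H ∧ QPow q (W.relIndex H) ∧ N₀ ⊓ W ≤ RQ q H

/-- Block G4 (uses blocks E2 and F2). -/
def BlockG4 : Prop :=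
  ∀ (G : Type) [Group G], Group.FG G → Folner G → ∀ r : ℕ, RankBound r G →
    ∃ H₀ : Subgroup G, H₀.Normal ∧ H₀.FiniteIndex ∧ ∃ d : ℕ,
      P1 ((derivedSeries H₀ d).map H₀.subtype)

/-- Block NL, the numerical lemma. -/
def BlockNL : Prop :=
  ∀ (q : ℕ) [Fact q.Prime] (H : Type) [Group H], Module.Finite (ZMod q) (HH q H 1) →
    Module.Finite (ZMod q) (HH q H 2) → ∀ (E W : Subgroup H), E ⊔ W = ⊤ →
    ∀ x : H →* Multiplicative (ZMod q) × Multiplicative (ZMod q), W ≤ x.ker → E.map x = ⊤ →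
    (∀ Y : Subgroup H, Y.Normal → QPow q Y.index →
      (∀ e ∈ E, e ^ q ∈ Y) ∧ (∀ e ∈ E, ∀ e' ∈ E, ⁅e, e'⁆ ∈ Y) ∧ (∀ e ∈ E, ∀ w ∈ W, ⁅e, w⁆ ∈ Y) ∧
      (∀ e ∈ E, x e = 1 → e ∈ Y)) →
    2 * hd q H 1 ≤ hd q H 2 + 1

/-- no subgroup isomorphic to `(ℤ/q)²` -/
def NoRankTwo (q : ℕ) (P : Type) [Group P] : Prop :=
  ∀ a b : P, a ^ q = 1 → b ^ q = 1 → Commute a b → a ≠ 1 → b ∈ Subgroup.zpowers a

/-- Block G5. -/
def BlockG5 : Prop :=
  ∀ (G : Type) [Group G], PD4 G → (∀ (q : ℕ) [Fact q.Prime], Deep q G) →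
    ∀ N₀ : Subgroup G, N₀.Normal → P1 N₀ → ∀ (q : ℕ) [Fact q.Prime] (M : Subgroup G) [M.Normal],
      M.FiniteIndex → ∀ S : Subgroup (G ⧸ M), S ≤ N₀.map (QuotientGroup.mk' M) → IsPGroup q S →
      ∃ (P : Type) (_ : Group P) (_ : Finite P) (f : P →* S), IsPGroup q P ∧ NoRankTwo q P ∧
        Function.Surjective f

/-- Block G6, `p`-groups without `(ℤ/p)²`. -/
def BlockG6 : Prop :=
  ∀ (q : ℕ) [Fact q.Prime] (P : Type) [Group P] [Finite P], IsPGroup q P → NoRankTwo q P →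
    (q ≠ 2 → IsCyclic P) ∧ (q = 2 → ∀ Q : Subgroup P, Q.Normal → 4 ≤ Q.index → IsCyclic Q)

/-- Block G7, the end of the proof. -/
def BlockG7 : Prop :=
  ∀ (G : Type) [Group G], ResFin G → ∀ N₀ : Subgroup G, N₀.Normal →
    (∀ (q : ℕ) [Fact q.Prime] (M : Subgroup G) [M.Normal], M.FiniteIndex →
      ∀ S : Subgroup (G ⧸ M), S ≤ N₀.map (QuotientGroup.mk' M) → IsPGroup q S →
        (q ≠ 2 → IsCyclic S) ∧ (q = 2 → ∀ Q : Subgroup S, Q.Normal → 4 ≤ Q.index → IsCyclic Q)) →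
    ∃ M₁ : Subgroup G, M₁.FiniteIndex ∧ Group.IsSolvable (N₀ ⊓ M₁ : Subgroup G)

/-- The main theorem. -/
def Main4 : Prop :=
  ∀ {M : Type} {X : Type} {Γ : Type}
    [TopologicalSpace M] [T2Space M] [CompactSpace M] [ChartedSpace (EuclideanSpace ℝ (Fin 4)) M]
    [TopologicalSpace X] [ContractibleSpace X] [Group Γ] [MulAction Γ X]
    [ContinuousConstSMul Γ X] (p : X → M), IsQuotientCoveringMap p Γ →
    Folner Γ → ResFin Γ → VSolv Γ

end Vale.Agent.P260
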