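import Vale.Agent.P260.Spec
import Vale.Agent.P260.H573.Ind
import Vale.Agent.P260.H679.Euler

/-!
P260, theorem T2: closed aspherical 4-manifolds with amenable residually finite fundamental group.
Statements of the blocks.
-/

namespace Vale.Agent.P260

open Vale.Agent.P239.M (CFillS)
open F (der)
open B (chi)

/-- `G` is residually finite. -/
def RFin (G : Type*) [Group G] : Prop :=
  ∀ g : G, g ≠ 1 → ∃ N : Subgroup G, N.Normal ∧ N.FiniteIndex ∧ g ∉ N

/-- `G` is residually (finite and solvable). -/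
def RFS (G : Type*) [Group G] : Prop :=
  ∀ g : G, g ≠ 1 → ∃ N : Subgroup G, ∃ _ : N.Normal, N.FiniteIndex ∧ Group.IsSolvable (G ⧸ N) ∧
    g ∉ N

/-- `G` is virtually residually (finite and solvable). -/
def VRFS (G : Type*) [Group G] : Prop := ∃ H : Subgroup G, H.FiniteIndex ∧ RFS H

/-- What holds for every finite index subgroup of the fundamental group of a closed aspherical
4-manifold, orientable or not. -/
structure Coh4 (G : Type) [Group G] : Prop where
  fg : Group.FG G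
  fill : ∀ (k : Type) [CommRing k] (j : ℕ), CFillS k G j
  fin : ∀ (q : ℕ) [Fact q.Prime] (n : ℕ), n ≤ 4 → Module.Finite (ZMod q) (HH q G n)
  five : ∀ (q : ℕ) [Fact q.Prime], Subsingleton (HH q G 5)
  four : ∀ (q : ℕ) [Fact q.Prime], hd q G 4 ≤ 1

/-- [U] Uniform virtual solvability of the representations over `ℤ/q^j` (all `q`, all `j`). -/
def BlockU : Prop :=
  ∀ (G : Type) [Group G], Group.FG G → Folner G → ∀ m : ℕ, ∃ H : Subgroup G, H.Normal ∧
    H.FiniteIndex ∧ ∃ n : ℕ, ∀ (q : ℕ) [Fact q.Prime] (j : ℕ), 0 < j →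
      ∀ ρ : G →* GL (Fin m) (ZMod (q ^ j)), ∀ x ∈ der H n, ρ x = 1

/-- [V] Actions on finite abelian `q`-groups of rank at most `r`. -/
def BlockV : Prop :=
  ∀ (G : Type) [Group G] (r : ℕ) (D : Subgroup G),
    (∀ m ≤ r, ∀ (q : ℕ) [Fact q.Prime] (j : ℕ), 0 < j →
      ∀ ρ : G →* GL (Fin m) (ZMod (q ^ j)), ∀ x ∈ D, ρ x = 1) →
    ∀ (q : ℕ) [Fact q.Prime] (A : Type) [AddCommGroup A] [Finite A] (φ : G →* AddMonoid.End A),
      (∃ e : ℕ, ∀ a : A, q ^ e • a = 0) → (nsmulAddMonoidHom (α := A) q).range.index ≤ q ^ r →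
      ∀ x ∈ der D r, φ x = 1

/-- [W] Finite groups. -/
def BlockW : Prop :=
  ∀ (P : Type) [Group P] [Finite P] (D : Subgroup P), D.Normal →
    (∀ N : Subgroup P, N.Normal → ⁅N, D⁆ ≤ ⁅N, N⁆) → der D 2 = der D 3

/-- The `n`-th derived group of `H` has perfect image in every finite quotient of `G`. -/
def PerfIm {G : Type*} [Group G] (H : Subgroup G) (n : ℕ) : Prop :=
  ∀ K : Subgroup G, K.Normal → K.FiniteIndex → der H n ≤ ⁅der H n, der H n⁆ ⊔ K

/-- [X] Finitely generated amenable groups all of whose finite index subgroups have bounded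
`q`-ranks for all `q`. -/
def BlockX : Prop :=
  ∀ (G : Type) [Group G], Group.FG G → Folner G → ∀ r : ℕ,
    (∀ (q : ℕ) [Fact q.Prime] (H : Subgroup G), H.FiniteIndex →
      Nat.card (H →* Multiplicative (ZMod q)) ≤ q ^ r) →
    ∃ H : Subgroup G, H.Normal ∧ H.FiniteIndex ∧ ∃ n : ℕ, ∀ H₁ : Subgroup G, H₁ ≤ H → H₁.Normal →
      H₁.FiniteIndex → PerfIm H₁ n

/-- [X'] -/
def BlockX' : Prop :=
  ∀ (G : Type) [Group G] (H : Subgroup G) (n : ℕ), H.Normal → H.FiniteIndex →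
    (∀ H₁ : Subgroup G, H₁ ≤ H → H₁.Normal → H₁.FiniteIndex → PerfIm H₁ n) →
    VRFS G → VSolv G

/-- [A2] The manifold side. -/
def BlockA2 : Prop :=
  ∀ {M : Type} {X : Type} {Γ : Type}
    [TopologicalSpace M] [T2Space M] [CompactSpace M] [ChartedSpace (EuclideanSpace ℝ (Fin 4)) M]
    [TopologicalSpace X] [ContractibleSpace X] [Group Γ] [MulAction Γ X]
    [ContinuousConstSMul Γ X] (p : X → M), IsQuotientCoveringMap p Γ →
    (∀ H : Subgroup Γ, H.FiniteIndex → Coh4 H) ∧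
    ∀ (q : ℕ) [Fact q.Prime], ∃ Γ' : Subgroup Γ, Γ'.Normal ∧ Γ'.FiniteIndex ∧
      q.Coprime Γ'.index ∧ ∀ H : Subgroup Γ, H.FiniteIndex → H ≤ Γ' → Dual4 q H

/-- [Z1] The Euler characteristic does not depend on the field. -/
def BlockZ1 : Prop :=
  ∀ (G : Type) [Group G], Coh4 G → ∀ (q l : ℕ) [Fact q.Prime] [Fact l.Prime],
    chi (Rep.trivial (ZMod q) G (ZMod q)) = chi (Rep.trivial (ZMod l) G (ZMod l))

/-- [Z2] The bound for the first Betti numbers. -/
def BlockZ2 : Prop :=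
  ∀ (G : Type) [Group G], Folner G → RFin G → (∀ H : Subgroup G, H.FiniteIndex → Coh4 H) →
    ∀ (q : ℕ) [Fact q.Prime] (G' : Subgroup G), G'.Normal → G'.FiniteIndex → q.Coprime G'.index →
      (∀ H : Subgroup G, H.FiniteIndex → H ≤ G' → Dual4 q H) →
      ∀ H : Subgroup G, H.FiniteIndex → hd q H 1 ≤ 1551

/-- The main theorem T2. -/
def Main2 : Prop :=
  ∀ {M : Type} {X : Type} {Γ : Type}
    [TopologicalSpace M] [T2Space M] [CompactSpace M] [ChartedSpace (EuclideanSpace ℝ (Fin 4)) M]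
    [TopologicalSpace X] [ContractibleSpace X] [Group Γ] [MulAction Γ X]
    [ContinuousConstSMul Γ X] (p : X → M), IsQuotientCoveringMap p Γ → Folner Γ → RFin Γ →
    (∀ (q : ℕ) [Fact q.Prime] (H : Subgroup Γ), H.FiniteIndex → hd q H 1 ≤ 1551) ∧
    (∃ H : Subgroup Γ, H.Normal ∧ H.FiniteIndex ∧ ∃ n : ℕ, ∀ H₁ : Subgroup Γ, H₁ ≤ H →
      H₁.Normal → H₁.FiniteIndex → PerfIm H₁ n) ∧
    (VRFS Γ → VSolv Γ)

end Vale.Agent.P260
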