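import Vale.Agent.P260.Assembly4
import Vale.Agent.P260.H20.BlockPD
import Vale.Agent.P260.H458.G1
import Vale.Agent.P260.H679.G2
import Vale.Agent.P260.H720.G3
import Vale.Agent.P260.H811.E2
import Vale.Agent.P260.H191.BlockF2
import Vale.Agent.P260.H175.G4
import Vale.Agent.P260.H553.BlockNL
import Vale.Agent.P260.H15.G5
import Vale.Agent.P260.H704.Blocks

/-!
P260: closed aspherical 4-manifolds with amenable, residually finite fundamental group.
-/

namespace Vale.Agent.P260

theorem blockE2 : BlockE2 := fun q _ G _ hfg H hH hHf hres r hr =>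
  blockE2_lit q G hfg H hH hHf hres r hr

theorem blockG4 : BlockG4 := blockG4_of blockE2 blockF2

theorem blockNL : BlockNL := fun q _ H _ h1 h2 E W hEW x hW hE hY =>
  H553.blockNL_lit q H h1 h2 E W hEW x hW hE hY

theorem main4 : Main4 :=
  main4_of_blocks blockPD (blockG2_of blockG1) blockG3 blockG4 (H15.blockG5_of blockNL) blockG6
    blockG7

end Vale.Agent.P260
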