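import Vale.Agent.P260.Assembly
import Vale.Agent.P260.H672.A1S
import Vale.Agent.P260.H553.A4Mfd
import Vale.Agent.P260.H458.A6
import Vale.Agent.P260.H679.BlockB
import Vale.Agent.P260.H720.BlockC
import Vale.Agent.P260.H117.D2
import Vale.Agent.P260.H811.Main
import Vale.Agent.P260.H573.BlockF

/-!
P260: closed aspherical 4-manifolds with amenable, virtually residually-`q` fundamental group.
-/

namespace Vale.Agent.P260

theorem blockA : BlockA :=
  A.blockA_of H672.a1s H672.finS
    (fun q _ {M X Γ} _ _ _ _ _ _ _ _ p hp => by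
      obtain ⟨Hp, h1, h2⟩ := H553.a4_four hp q
      exact ⟨Hp, h1, fun H hH hle => h2 H hle hH⟩)
    (fun k _ H _ i => H458.pres k H i)

theorem main : Main :=
  main_of_blocks blockA blockB blockC
    (fun q _ l G _ S Q _ f hf hG hA => H117.blockD_lit q l G S Q f hf hG hA)
    (fun q _ G _ hfg hres r hr => blockE_lit q G hfg hres r hr)
    (fun K _ _ m G _ hfg hG ρ => blockF_lit K m G hfg hG ρ)

end Vale.Agent.P260
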